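import Vale.Agent.P240.R2.H928.Defs
import Vale.Agent.P240.R2.H584.U5c

/-!
`PSU_n(5)`, `n` even, `p = 2`: from the plane condition (U5a), the sum over the forms (U5b) and the
frame with prescribed letters (U5c) to the solutions with sum zero.
-/

set_option autoImplicit false
set_option linter.all false

namespace Vale.Agent.P240.R2.H399

open Matrix Vale.Agent.P240.R2.AS Vale.Agent.P240.R2.H38 Vale.Agent.P240.R2.H584
open Vale.Agent.P240.R2.H315 (RForm FR F25 ltr StmtU5a StmtU5b)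
open Vale.Agent.P240.R2.H928 (SSol StmtI StmtII)
open Vale.Agent.P240.R2.H986 (ev)
open scoped Classical

universe u v w

noncomputable section

/-! ### the field -/

section
variable {K : Type u} [Field K] [Fintype K]

lemma exists_rho (h : Nat.card K = 5 ^ 2) : ∃ ρ : K, ρ * ρ = ρ - 1 := by
  have hc : Nat.card Kˣ = 24 := by
    rw [Nat.card_units, h]; norm_num
  obtain ⟨g, hg⟩ := IsCyclic.exists_ofOrder_eq_natCard (α := Kˣ)
  rw [hc] at hg
  have h4 : orderOf (g ^ 4) = 6 := by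
    rw [orderOf_pow, hg]; norm_num
  set r : Kˣ := g ^ 4 with hr
  have h6 : (r : K) ^ 6 = 1 := by
    rw [← Units.val_pow_eq_pow_val, ← h4, pow_orderOf_eq_one, Units.val_one]
  have h3 : (r : K) ^ 3 ≠ 1 := by
    intro h
    have h1 : r ^ 3 = 1 := by
      apply Units.ext; rw [Units.val_pow_eq_pow_val, h, Units.val_one]
    have h2 := orderOf_dvd_of_pow_eq_one h1
    rw [h4] at h2
    norm_num at h2
  have h2 : (r : K) ^ 2 ≠ 1 := by
    intro h
    have h1 : r ^ 2 = 1 := by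
      apply Units.ext; rw [Units.val_pow_eq_pow_val, h, Units.val_one]
    have h2 := orderOf_dvd_of_pow_eq_one h1
    rw [h4] at h2
    norm_num at h2
  have e1 : ((r : K) ^ 3 - 1) * ((r : K) + 1) * ((r : K) ^ 2 - (r : K) + 1) = 0 := by
    have : ((r : K) ^ 3 - 1) * ((r : K) + 1) * ((r : K) ^ 2 - (r : K) + 1) = (r : K) ^ 6 - 1 := by
      ring
    rw [this, h6, sub_self]
  have h1 : (r : K) + 1 ≠ 0 := by
    intro h
    have : (r : K) = -1 := by linear_combination h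
    rw [this] at h2
    exact h2 (by norm_num)
  rcases mul_eq_zero.1 e1 with h | h
  · rcases mul_eq_zero.1 h with h | h
    · exact absurd (sub_eq_zero.1 h) h3
    · exact absurd h h1
  · exact ⟨r, by linear_combination h⟩

end

/-! ### the assembly -/

section
variable {K : Type u} [Field K] [Fintype K] [StarRing K]

/-- **from solutions of the form `zf` to `SSol`** -/
theorem ssol_of (ha : StmtU5a.{u}) (hb : StmtU5b.{u}) {ρ : K} (hF : F25 K ρ) {n : ℕ} (hn : 3 ≤ n)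
    {S : Subgroup (GU K n)}
    (hS : ∀ g g' : GU K n, g.1.det = g'.1.det → (g ∈ S ↔ g' ∈ S))
    {V : Type} [AddCommGroup V] [Module ℚ V] {M : Lt → Module.End ℚ V} (hM : Rep M)
    (ℓ : V →ₗ[ℚ] ℚ) (a : V) {w : Fin n → K} {g : List (Ln K n)}
    (hev : ev (zf M ℓ a (ltr ρ w 1) (FR (1 : Matrix (Fin n) (Fin n) K))) g [] [] ≠ 0)
    (hev' : ∀ c : K, c ≠ 1 →
      ev (zf M ℓ a (ltr ρ w (c • 1)) (FR (c • (1 : Matrix (Fin n) (Fin n) K)))) g [] [] = 0) :
    SSol S := by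
  refine ⟨Finset.univ.filter fun s => s ∈ S ∧ RForm s.1,
    fun s => zf M ℓ a (ltr ρ w s.1) (FR s.1), ?_, ?_, ?_, ?_, g, ?_, ?_⟩
  · intro s hs
    exact (Finset.mem_filter.1 hs).2
  · intro s hs
    exact zf_mem hM ℓ a (ha K ρ hF n w s.1 s.2 (Finset.mem_filter.1 hs).2.2)
  · exact hb K ρ hF n hn w S hS V M hM ℓ a
  · exact Finset.mem_filter.2 ⟨Finset.mem_univ _, S.one_mem, RForm_one⟩
  · exact hev
  · rintro s hs hs1 ⟨c, hc⟩
    have hc1 : c ≠ 1 := by
      rintro rfl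
      refine hs1 (Subtype.ext ?_)
      rw [hc, one_smul]; rfl
    show ev (zf M ℓ a (ltr ρ w s.1) (FR s.1)) g [] [] = 0
    rw [hc]
    exact hev' c hc1

end

/-- **Case I** -/
theorem stmtI (ha : StmtU5a.{u}) (hb : StmtU5b.{u}) : StmtI.{u} := by
  intro K _ _ _ hcard hstar m hm hm5
  obtain ⟨ρ, hρ⟩ := exists_rho hcard
  have hF : F25 K ρ := ⟨hcard, hstar, hρ⟩
  obtain ⟨k, hk⟩ : ∃ k, m = 2 * k + 3 := by
    obtain ⟨j, rfl⟩ := hm
    exact ⟨j - 1, by omega⟩
  obtain ⟨w, h1, h2⟩ := u5c_odd hF k hk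
  refine ssol_of ha hb hF (by omega) (fun _ _ _ => Iff.rfl) rep2 (evf [4]) (pre 4 (Zp k gP))
    (w := w) (g := w0 K m) ?_ h2
  have h3 : ev (z2 k (ltr ρ w 1) (FR (1 : Matrix (Fin m) (Fin m) K))) (w0 K m) [] [] ≠ 0 := by
    rw [h1]; norm_num
  exact h3

/-- **Case II** -/
theorem stmtII (ha : StmtU5a.{u}) (hb : StmtU5b.{u}) : StmtII.{u} := by
  intro K _ _ _ hcard hstar n hn hn6
  obtain ⟨ρ, hρ⟩ := exists_rho hcard
  have hF : F25 K ρ := ⟨hcard, hstar, hρ⟩
  obtain ⟨k, hk⟩ : ∃ k, n = 2 * k + 6 := by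
    obtain ⟨j, rfl⟩ := hn
    exact ⟨j - 3, by omega⟩
  obtain ⟨w, h1, h2⟩ := u5c_even hF k hk
  refine ssol_of ha hb hF (by omega) (S := H938.SZ K n 2) ?_ rep2 (evf [4])
    (pre 4 (Zp k gPP)) (w := w) (g := w0 K n) ?_ h2
  · intro g g' h
    show g.1.det ^ 2 = 1 ↔ g'.1.det ^ 2 = 1
    rw [h]
  · have h3 : ev (z3 k (ltr ρ w 1) (FR (1 : Matrix (Fin n) (Fin n) K))) (w0 K n) [] [] ≠ 0 := by
      rw [h1]; norm_num
    exact h3

end

end Vale.Agent.P240.R2.H399
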