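import Vale.Agent.P240.R2.H490.P5M

/-!
The block `V_4`.
-/

set_option autoImplicit false
set_option linter.all false

namespace Vale.Agent.P240.R2.H399.V4

open Subgroup Matrix Vale.Agent.P240 Vale.Agent.P240.H195 Vale.Agent.P240.R2.H487
open Vale.Agent.P240.R2.H490

universe u v w

/-- the form -/
def dV : Fin 4 → ZMod 5 := ![3, 2, 4, 2]

lemma dV_ne : ∀ i, dV i ≠ 0 := by decide

lemma dV_sq : (List.ofFn dV).map (fun x => IsSquare x) =
    List.replicate 2 False ++ (List.replicate 1 True ++ [False]) := by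
  have h2 : ¬ IsSquare (2 : ZMod 5) := by decide
  have h3 : ¬ IsSquare (3 : ZMod 5) := by decide
  have h4 : IsSquare (4 : ZMod 5) := by decide
  have e2 : IsSquare (2 : ZMod 5) = False := eq_false h2
  have e3 : IsSquare (3 : ZMod 5) = False := eq_false h3
  have e4 : IsSquare (4 : ZMod 5) = True := eq_true h4
  show [IsSquare (3 : ZMod 5), IsSquare (2 : ZMod 5), IsSquare (4 : ZMod 5),
    IsSquare (2 : ZMod 5)] = [False, False, True, False]
  rw [e2, e3, e4]

section
variable {F : Type u} [Field F] (ι : ZMod 5 →+* F)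

/-- the four matrices of size two -/
def cB (α : F) : Fin 4 → M2 F := ![bF ι 0, bF ι 2, bF ι 1, α • 1]

/-- their conjugates -/
def cB' (α : F) : Fin 4 → M2 F := ![-bF ι 0, -bF ι 2, -bF ι 1, α • 1]

variable {ι} {α : F} (hα : α * α = ι 2)
include hα

lemma cB_sq (i : Fin 4) : cB ι α i * cB' ι α i = ι (dV i) • 1 := by
  have h : ∀ k : Fin 3, bF ι k * -bF ι k = ι (db k) • 1 := fun k => by
    rw [mul_neg, bF_sq, neg_smul, neg_neg]
  fin_cases i
  · exact h 0
  · exact h 2
  · exact h 1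
  · show (α • (1 : M2 F)) * (α • 1) = ι 2 • 1
    rw [smul_mul_smul_comm, mul_one, hα]

lemma cB_sq' (i : Fin 4) : cB' ι α i * cB ι α i = ι (dV i) • 1 := by
  have h : ∀ k : Fin 3, -bF ι k * bF ι k = ι (db k) • 1 := fun k => by
    rw [neg_mul, bF_sq, neg_smul, neg_neg]
  fin_cases i
  · exact h 0
  · exact h 2
  · exact h 1
  · show (α • (1 : M2 F)) * (α • 1) = ι 2 • 1
    rw [smul_mul_smul_comm, mul_one, hα]

omit hα in
lemma cB_anti (i j : Fin 4) (hij : i ≠ j) :
    cB ι α i * cB' ι α j = -(cB ι α j * cB' ι α i) := by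
  have h : ∀ k l : Fin 3, k ≠ l → bF ι k * -bF ι l = -(bF ι l * -bF ι k) := fun k l hkl => by
    rw [mul_neg, bF_anti ι k l hkl, mul_neg]
  have h3 : ∀ k : Fin 3, bF ι k * (α • (1 : M2 F)) = -((α • (1 : M2 F)) * -bF ι k) := fun k => by
    rw [mul_smul_comm, mul_one, smul_mul_assoc, one_mul, smul_neg, neg_neg]
  have h3' : ∀ k : Fin 3, (α • (1 : M2 F)) * -bF ι k = -(bF ι k * (α • (1 : M2 F))) := fun k => by
    rw [h3, neg_neg]
  fin_cases i <;> fin_cases j
  · exact absurd rfl hij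
  · exact h 0 2 (by decide)
  · exact h 0 1 (by decide)
  · exact h3 0
  · exact h 2 0 (by decide)
  · exact absurd rfl hij
  · exact h 2 1 (by decide)
  · exact h3 2
  · exact h 1 0 (by decide)
  · exact h 1 2 (by decide)
  · exact absurd rfl hij
  · exact h3 1
  · exact h3' 0
  · exact h3' 2
  · exact h3' 1
  · exact absurd rfl hij

omit hα in
lemma cB_anti' (i j : Fin 4) (hij : i ≠ j) :
    cB' ι α i * cB ι α j = -(cB' ι α j * cB ι α i) := by
  have h : ∀ k l : Fin 3, k ≠ l → -bF ι k * bF ι l = -(-bF ι l * bF ι k) := fun k l hkl => by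
    rw [neg_mul, bF_anti ι k l hkl, neg_mul]
  have h3 : ∀ k : Fin 3, -bF ι k * (α • (1 : M2 F)) = -((α • (1 : M2 F)) * bF ι k) := fun k => by
    rw [mul_smul_comm, mul_one, smul_mul_assoc, one_mul, smul_neg]
  have h3' : ∀ k : Fin 3, (α • (1 : M2 F)) * bF ι k = -(-bF ι k * (α • (1 : M2 F))) := fun k => by
    rw [h3, neg_neg]
  fin_cases i <;> fin_cases j
  · exact absurd rfl hij
  · exact h 0 2 (by decide)
  · exact h 0 1 (by decide)
  · exact h3 0
  · exact h 2 0 (by decide)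
  · exact absurd rfl hij
  · exact h 2 1 (by decide)
  · exact h3 2
  · exact h 1 0 (by decide)
  · exact h 1 2 (by decide)
  · exact absurd rfl hij
  · exact h3 1
  · exact h3' 0
  · exact h3' 2
  · exact h3' 1
  · exact absurd rfl hij

/-- linear independence -/
lemma cB_ind (g : Fin 4 → F) (hg : ∑ i, g i • cB ι α i = 0) (i : Fin 4) : g i = 0 := by
  have h2 := two_ne0 ι
  have ha : α ≠ 0 := by
    rintro rfl
    rw [mul_zero] at hα
    exact absurd (ι.injective (hα.symm.trans (map_zero ι).symm)) (by decide)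
  rw [Fin.sum_univ_four] at hg
  have hg' : g 0 • bF ι 0 + g 1 • bF ι 2 + g 2 • bF ι 1 + g 3 • (α • (1 : M2 F)) = 0 := hg
  rw [bF_0, bF_1, bF_2] at hg'
  have e00 := congrFun (congrFun hg' 0) 0
  have e01 := congrFun (congrFun hg' 0) 1
  have e10 := congrFun (congrFun hg' 1) 0
  have e11 := congrFun (congrFun hg' 1) 1
  simp at e00 e01 e10 e11
  have k2 : g 2 = 0 := by
    have h3 : 2 * g 2 = 0 := by linear_combination e00 - e11
    exact (mul_eq_zero.1 h3).resolve_left h2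
  have k3 : g 3 = 0 := by
    have h3 : 2 * (g 3 * α) = 0 := by linear_combination e00 + e11
    exact (mul_eq_zero.1 ((mul_eq_zero.1 h3).resolve_left h2)).resolve_right ha
  have k01 : g 0 = g 1 := by linear_combination e01
  have k0 : g 0 = 0 := by
    have h3 : 2 * (2 * g 0) = 0 := by
      rw [← k01] at e10
      linear_combination e10
    exact (mul_eq_zero.1 ((mul_eq_zero.1 h3).resolve_left h2)).resolve_left h2
  fin_cases i
  · exact k0
  · exact k01 ▸ k0
  · exact k2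
  · exact k3

end

section
variable {F : Type u} [Field F] {a m : ℕ} (ι : ZMod 5 →+* F) (σ : Fin (m + 1) ≃ (Fin a → Fin 2))

/-- the Clifford system -/
def cV (α : F) (j : Fin a) (i : Fin 4) : Matrix (Fin (m + 1)) (Fin (m + 1)) F :=
  TT σ j (cB ι α i)

/-- the Clifford system -/
def cV' (α : F) (j : Fin a) (i : Fin 4) : Matrix (Fin (m + 1)) (Fin (m + 1)) F :=
  TT σ j (cB' ι α i)

/-- the matrices of size two -/
def BB (α : F) (x : Fin 4 → ZMod 5) : M2 F := ∑ i, ι (x i) • cB ι α i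

/-- the matrices of size two -/
def BB' (α : F) (x : Fin 4 → ZMod 5) : M2 F := ∑ i, ι (x i) • cB' ι α i

lemma TT_sum {J : Type*} (s : Finset J) (j : Fin a) (f : J → M2 F) :
    TT σ j (∑ i ∈ s, f i) = ∑ i ∈ s, TT σ j (f i) := by
  classical
  induction s using Finset.induction_on with
  | empty => rw [Finset.sum_empty, Finset.sum_empty, TT_zero]
  | insert i s hi ih => rw [Finset.sum_insert hi, Finset.sum_insert hi, TT_add, ih]

lemma CC_cV (α : F) (j : Fin a) (x : Fin 4 → ZMod 5) :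
    CC ι (cV ι σ α j) x = TT σ j (BB ι α x) := by
  rw [CC, BB, TT_sum]
  exact Finset.sum_congr rfl fun i _ => by rw [TT_smul]; rfl

lemma CC_cV' (α : F) (j : Fin a) (x : Fin 4 → ZMod 5) :
    CC ι (cV' ι σ α j) x = TT σ j (BB' ι α x) := by
  rw [CC, BB', TT_sum]
  exact Finset.sum_congr rfl fun i _ => by rw [TT_smul]; rfl

lemma BB_eq (α : F) (x : Fin 4 → ZMod 5) : BB ι α x =
    (x 0 • bb 0 + x 1 • bb 2 + x 2 • bb 1).map ι + (α * ι (x 3)) • 1 := by
  have h1 : BB ι α x = ι (x 0) • bF ι 0 + ι (x 1) • bF ι 2 + ι (x 2) • bF ι 1 +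
      ι (x 3) • (α • (1 : M2 F)) := by
    rw [BB, Fin.sum_univ_four]
    rfl
  have h2 : ∀ (c : ZMod 5) (k : Fin 3), (c • bb k).map ι = ι c • bF ι k := by
    intro c k
    ext b e
    rw [Matrix.map_apply, Matrix.smul_apply, smul_eq_mul, map_mul]
    rfl
  have h3 : ∀ y z : M2 (ZMod 5), (y + z).map ι = y.map ι + z.map ι := by
    intro y z
    ext b e
    rw [Matrix.map_apply, Matrix.add_apply, map_add]
    rfl
  rw [h1, h3, h3, h2, h2, h2, smul_smul, mul_comm (ι (x 3))]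

lemma bb_trace (x : Fin 4 → ZMod 5) : (x 0 • bb 0 + x 1 • bb 2 + x 2 • bb 1).trace = 0 := by
  have h1 : ∀ k, (bb k).trace = 0 := by decide
  rw [Matrix.trace_add, Matrix.trace_add, Matrix.trace_smul, Matrix.trace_smul, Matrix.trace_smul,
    h1, h1, h1, smul_zero, smul_zero, smul_zero, add_zero, add_zero]

end

section
variable {F : Type u} [Field F] [CharP F 5] {a m : ℕ} {ι : ZMod 5 →+* F}
  {σ : Fin (m + 1) ≃ (Fin a → Fin 2)}

lemma tau_io (τ : RingAut F) (x : ZMod 5) : τ (ι x) = ι x := by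
  have h1 : (τ : F →+* F).comp ι = ι := Subsingleton.elim _ _
  exact congrArg (fun f : ZMod 5 →+* F => f x) h1

lemma tau_bF (τ : RingAut F) (i : Fin 3) : (bF ι i).map τ = bF ι i := by
  ext b e
  rw [Matrix.map_apply]
  exact tau_io τ _

lemma rat_uB (i : Fin 3) : Rat2 (uB ι i) := fun τ => tau_bF τ i

/-- conjugation by the field automorphism -/
lemma tau_BB {α : F} {τ : RingAut F} (hτ : τ α = -α) (x : Fin 4 → ZMod 5) :
    (BB ι α x).map τ = -BB' ι α x := by
  have h0 : ∀ k : Fin 4, (cB ι α k).map τ = -cB' ι α k := by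
    intro k
    fin_cases k
    · show (bF ι 0).map τ = - -bF ι 0
      rw [tau_bF, neg_neg]
    · show (bF ι 2).map τ = - -bF ι 2
      rw [tau_bF, neg_neg]
    · show (bF ι 1).map τ = - -bF ι 1
      rw [tau_bF, neg_neg]
    · show (α • (1 : M2 F)).map τ = -(α • (1 : M2 F))
      ext b e
      rw [Matrix.map_apply, Matrix.neg_apply, Matrix.smul_apply, smul_eq_mul, map_mul, hτ,
        Matrix.one_apply]
      split_ifs
      · rw [map_one, neg_mul]
      · rw [map_zero, mul_zero, mul_zero, neg_zero]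
  ext b e
  rw [Matrix.map_apply, BB, BB', Matrix.neg_apply, Matrix.sum_apply, Matrix.sum_apply, map_sum,
    ← Finset.sum_neg_distrib]
  refine Finset.sum_congr rfl fun k _ => ?_
  have h1 := congrFun (congrFun (h0 k) b) e
  rw [Matrix.map_apply, Matrix.neg_apply] at h1
  rw [Matrix.smul_apply, Matrix.smul_apply, smul_eq_mul, smul_eq_mul, map_mul, tau_io, h1, mul_neg]

lemma br_BB (σ : Fin (m + 1) ≃ (Fin a → Fin 2)) (α : F) (j : Fin a) (x : Fin 4 → ZMod 5) :
    br σ (TT σ j (BB ι α x)) = TT σ j (BB' ι α x) := by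
  have h0 : ∀ k : Fin 4, (uJ F).1 * (cB ι α k)ᵀ * ((uJ F)⁻¹).1 = cB' ι α k := by
    have h3 : ∀ k : Fin 3, (bF ι k).trace = 0 := by
      intro k
      have h4 : ∀ k : Fin 3, (bb k).trace = 0 := by decide
      have h5 := congrArg ι (h4 k)
      rw [map_zero, Matrix.trace_fin_two, map_add] at h5
      rw [Matrix.trace_fin_two]
      exact h5
    intro k
    fin_cases k
    · exact uJ_bar_neg _ (h3 0)
    · exact uJ_bar_neg _ (h3 2)
    · exact uJ_bar_neg _ (h3 1)
    · show (uJ F).1 * (α • (1 : M2 F))ᵀ * ((uJ F)⁻¹).1 = α • (1 : M2 F)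
      rw [Matrix.transpose_smul, mul_smul_comm, smul_mul_assoc, uJ_bar_one]
  rw [br_TT]
  congr 1
  rw [BB, BB', Matrix.transpose_sum, Finset.mul_sum, Finset.sum_mul]
  refine Finset.sum_congr rfl fun k _ => ?_
  rw [Matrix.transpose_smul, mul_smul_comm, smul_mul_assoc, h0]

lemma del_sq {τ : RingAut F} (h1 : τ * τ = 1) {δ : MulAut (PL m F)}
    (hδ : δ = fa τ ∨ δ = fa τ * g0 σ) : δ * δ = 1 := by
  have h2 : (fa τ * fa τ : MulAut (PL m F)) = 1 := by rw [← map_mul, h1, map_one]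
  rcases hδ with rfl | rfl
  · exact h2
  · calc fa τ * g0 σ * (fa τ * g0 σ) = fa τ * (g0 σ * fa τ) * g0 σ := by group
      _ = fa τ * fa τ * (g0 σ * g0 σ) := by rw [← fa_g0]; group
      _ = 1 := by rw [g0_sq, mul_one, h2]

variable {α : F} (hα : α * α = ι 2)
include hα

lemma BB_mul (σ : Fin (m + 1) ≃ (Fin a → Fin 2)) (j : Fin a) (x : Fin 4 → ZMod 5) :
    CC ι (cV ι σ α j) x * CC ι (cV' ι σ α j) x = ι (ip dV x x) • 1 := by
  refine half_eq (two_ne0 ι) ?_
  rw [CC_mul_aux (d := dV) (two_ne0 ι) (fun i => ?_) (fun i k hik => ?_), mul_smul]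
  · rw [cV, cV', TT_mul, cB_sq hα, TT_scalar]
  · rw [cV, cV', cV, cV', TT_mul, TT_mul, cB_anti i k hik, TT_neg]

lemma BB_mul' (σ : Fin (m + 1) ≃ (Fin a → Fin 2)) (j : Fin a) (x : Fin 4 → ZMod 5) :
    CC ι (cV' ι σ α j) x * CC ι (cV ι σ α j) x = ι (ip dV x x) • 1 := by
  refine half_eq (two_ne0 ι) ?_
  rw [CC_mul_aux (d := dV) (two_ne0 ι) (fun i => ?_) (fun i k hik => ?_), mul_smul]
  · rw [cV, cV', TT_mul, cB_sq' hα, TT_scalar]
  · rw [cV, cV', cV, cV', TT_mul, TT_mul, cB_anti' i k hik, TT_neg]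

/-- **The Clifford system of the block `V_4`.** -/
theorem cs (hm : 1 ≤ m) {τ : RingAut F} (hτ : τ α = -α) (hτ2 : τ * τ = 1) {δ : MulAut (PL m F)}
    (hδ : δ = fa τ ∨ δ = fa τ * g0 σ) (j : Fin a) :
    CS ι dV (cV ι σ α j) (cV' ι σ α j) (pgl m F) δ where
  two := two_ne0 ι
  sq i := by rw [cV, cV', TT_mul, cB_sq hα, TT_scalar]
  sq' i := by rw [cV, cV', TT_mul, cB_sq' hα, TT_scalar]
  anti i k hik := by rw [cV, cV', cV, cV', TT_mul, TT_mul, cB_anti i k hik, TT_neg]
  anti' i k hik := by rw [cV, cV', cV, cV', TT_mul, TT_mul, cB_anti' i k hik, TT_neg]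
  ind := by
    rw [Fintype.linearIndependent_iff]
    intro g hg i
    refine cB_ind hα g ?_ i
    refine TT_inj σ (j := j) ?_
    rw [TT_sum, ← hg]
    exact Finset.sum_congr rfl fun i _ => by rw [TT_smul]; rfl
  ker U := pgl_ker 5 hm U
  del := del_sq hτ2 hδ
  conj := by
    intro x hx U U' hU hU'
    have h1 : fa τ * pgl m F U * fa τ = pgl m F U' := by
      have h2 : (gla τ U).1 = -U'.1 := by
        show U.1.map τ = _
        rw [hU, hU', CC_cV, CC_cV', ← TT_neg, ← tau_BB hτ x]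
        exact TT_map σ (τ : F →+* F) j _
      rw [fa_S, mul_assoc, ← map_mul fa, hτ2, map_one, mul_one, pgl_eq 5 hm]
      exact ⟨-1, by rw [h2, neg_one_smul]⟩
    rcases hδ with rfl | rfl
    · exact h1
    · have h3 : g0 σ * pgl m F U * g0 σ = pgl m F U := by
        refine g0_conj σ 5 hm (c := ι (ip dV x x)) ?_
        rw [hU, CC_cV, br_BB, ← CC_cV', ← CC_cV]
        exact BB_mul' hα σ j x
      calc fa τ * g0 σ * pgl m F U * (fa τ * g0 σ)
          = fa τ * g0 σ * pgl m F U * (g0 σ * fa τ) := by rw [← fa_g0]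
        _ = fa τ * (g0 σ * pgl m F U * g0 σ) * fa τ := by group
        _ = _ := by rw [h3, h1]

end

/-- **The block `V_4`.** -/
theorem stmtV4 (𝕜 : Type v) [Field 𝕜] : StmtV4 𝕜 := by
  intro F _ _ _ a m ι σ hm hHC α hα τ hτ hτ2 _ δ hδ j
  have hcs := cs (σ := σ) hα hm hτ hτ2 hδ j
  have hδD : δ ∈ DM σ := ⟨τ, hδ⟩
  have hδ2 : δ * δ = 1 := hcs.del
  have hδi : δ⁻¹ = δ := inv_eq_of_mul_eq_one_left hδ2
  have hs : ∀ i, ip dV (Pi.single i 1) (Pi.single i 1) ≠ 0 := fun i => by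
    rw [ip_single_right, Pi.single_eq_same, mul_one]
    exact dV_ne i
  -- the standard reflections
  have hR : ∀ i (g : GL (Fin 2) F), g.1 = cB ι α i →
      hcs.R (Pi.single i 1) = pgl m F (gT σ j g) * δ := by
    intro i g hg
    rw [hcs.R_eq (hs i)]
    congr 2
    apply Units.ext
    rw [hcs.U_val, CC_single, gT_val, hg]
    rfl
  have hR0 := hR 0 (uB ι 0) rfl
  have hR1 := hR 1 (uB ι 2) rfl
  have hR2 := hR 2 (uB ι 1) rfl
  have hR3 : hcs.R (Pi.single 3 1) = δ := by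
    rw [hcs.R_eq (hs 3)]
    have h1 : pgl m F (hcs.U (hs 3)) = 1 := by
      rw [pgl_ker 5 hm]
      refine ⟨α, ?_⟩
      rw [hcs.U_val, CC_single]
      exact TT_scalar σ j α
    rw [h1, one_mul]
  set Q : Subgroup (MulAut (PL m F)) :=
    closure (Set.range fun i : Fin 4 => hcs.R (Pi.single i 1)) with hQ
  have hRQ : ∀ i : Fin 4, hcs.R (Pi.single i 1) ∈ Q := fun i => subset_closure ⟨i, rfl⟩
  have hδQ : δ ∈ Q := hR3 ▸ hRQ 3
  have hgQ : ∀ (i : Fin 4) (g : GL (Fin 2) F), g.1 = cB ι α i → pgl m F (gT σ j g) ∈ Q := by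
    intro i g hg
    have h1 : pgl m F (gT σ j g) = hcs.R (Pi.single i 1) * δ⁻¹ := by
      rw [hR i g hg, mul_inv_cancel_right]
    rw [h1]
    exact mul_mem (hRQ i) (inv_mem hδQ)
  have hQe : Q = PJ ι σ {j} ⊔ zpowers δ := by
    have hδP : δ ∈ PJ ι σ {j} ⊔ zpowers δ := mem_sup_right (mem_zpowers δ)
    have h0 : pgl m F (gT σ j (uB ι 0)) ∈ PJ ι σ {j} ⊔ zpowers δ :=
      mem_sup_left (subset_closure ⟨j, Finset.mem_singleton_self j, 0, by decide, rfl⟩)
    have h1 : pgl m F (gT σ j (uB ι 1)) ∈ PJ ι σ {j} ⊔ zpowers δ :=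
      mem_sup_left (subset_closure ⟨j, Finset.mem_singleton_self j, 1, by decide, rfl⟩)
    have h2 : pgl m F (gT σ j (uB ι 2)) ∈ PJ ι σ {j} ⊔ zpowers δ := by
      have h3 : uB ι 2 = uB ι 0 * uB ι 1 := by
        apply Units.ext
        rw [Units.val_mul, uB_val, uB_val, uB_val, bF_two']
      rw [h3, map_mul, map_mul]
      exact mul_mem h0 h1
    apply le_antisymm
    · rw [hQ, closure_le]
      rintro _ ⟨i, rfl⟩
      show hcs.R (Pi.single i 1) ∈ PJ ι σ {j} ⊔ zpowers δ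
      fin_cases i
      · exact hR0.symm ▸ mul_mem h0 hδP
      · exact hR1.symm ▸ mul_mem h2 hδP
      · exact hR2.symm ▸ mul_mem h1 hδP
      · exact hR3.symm ▸ hδP
    · refine sup_le ?_ (zpowers_le.2 hδQ)
      rw [PJ, closure_le]
      rintro _ ⟨l, hl, i, hi, rfl⟩
      rw [Finset.mem_singleton.1 hl]
      show pgl m F (gT σ j (uB ι i)) ∈ Q
      fin_cases i
      · exact hgQ 0 _ rfl
      · exact hgQ 2 _ rfl
      · exact absurd rfl hi
  rw [← hQe]
  refine hcs.vr.tcj (RingEquiv.refl (ZMod 5)) dV_ne (by norm_num) ?_ ?_ ?_ (le_refl 1) dV_sq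
  · -- the standard product
    have h1 : (List.ofFn fun i : Fin 4 => hcs.R (Pi.single i 1)).prod =
        (hcs.R (Pi.single 0 1) * hcs.R (Pi.single 1 1)) *
          (hcs.R (Pi.single 2 1) * hcs.R (Pi.single 3 1)) := by
      simp only [List.ofFn_succ, List.ofFn_zero, List.prod_cons, List.prod_nil, mul_one]
      rw [mul_assoc]
      rfl
    rw [h1, hcs.R_mul (hs 0) (hs 1), hcs.R_mul (hs 2) (hs 3), ← map_mul, hcs.ker]
    refine ⟨-(α * (ι (db 0) * ι (db 1))), ?_⟩
    rw [Units.val_mul, Units.val_mul, Units.val_mul, hcs.U_val, hcs.U'_val, hcs.U_val, hcs.U'_val,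
      CC_single, CC_single, CC_single, CC_single]
    show TT σ j (bF ι 0) * TT σ j (-bF ι 2) * (TT σ j (bF ι 1) * TT σ j (α • 1)) = _
    have h2 : bF ι 0 * -bF ι 2 * (bF ι 1 * (α • (1 : M2 F))) =
        (-(α * (ι (db 0) * ι (db 1)))) • 1 := by
      rw [← bF_two', mul_smul_comm, mul_one]
      calc bF ι 0 * -(bF ι 0 * bF ι 1) * (α • bF ι 1)
          = -(α • ((bF ι 0 * bF ι 0) * (bF ι 1 * bF ι 1))) := by
            rw [mul_neg, neg_mul, mul_smul_comm]
            simp only [mul_assoc]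
        _ = _ := by
            rw [bF_sq, bF_sq, smul_mul_smul_comm, mul_one, smul_smul, ← neg_smul]
            congr 1
            ring
    rw [TT_mul, TT_mul, TT_mul, h2, TT_scalar]
  · -- the reflections
    intro y hy
    rw [hcs.R_eq hy]
    obtain ⟨g, hg⟩ : ∃ g : GL (Fin 2) F, g.1 = BB ι α y := by
      have e1 : ∀ X Y : M2 F, TT σ j X * TT σ j Y = ι (ip dV y y) • 1 →
          X * Y = ι (ip dV y y) • 1 := by
        intro X Y h
        refine sub_eq_zero.1 (TT_inj σ (j := j) ?_)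
        rw [TT_sub, ← TT_mul, h, TT_scalar, sub_self]
      have h0 : ι (ip dV y y) ≠ 0 := by rwa [Ne, map_eq_zero]
      have k1 := e1 (BB ι α y) (BB' ι α y) (by
        rw [← CC_cV, ← CC_cV']
        exact BB_mul hα σ j y)
      have k2 := e1 (BB' ι α y) (BB ι α y) (by
        rw [← CC_cV, ← CC_cV']
        exact BB_mul' hα σ j y)
      exact ⟨⟨BB ι α y, (ι (ip dV y y))⁻¹ • BB' ι α y, by
        rw [mul_smul_comm, k1, smul_smul, inv_mul_cancel₀ h0, one_smul], by
        rw [smul_mul_assoc, k2, smul_smul, inv_mul_cancel₀ h0, one_smul]⟩, rfl⟩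
    refine subset_closure ⟨_, y 3, g, bb_trace y, hg.trans (BB_eq ι α y), ?_⟩
    congr 2
    apply Units.ext
    rw [hcs.U_val, CC_cV, gT_val, hg]
  · -- the centralizer
    intro g hg hgc
    refine hHC (J := {j}) hδD (M := M4 ι σ α j δ) (Q := Q) ?_ ?_ ?_ hδQ g hg ?_
    · rw [M4, closure_le]
      rintro _ ⟨B, t, g, hB, hg, rfl⟩
      exact mul_mem (mem_sup_left ⟨_, rfl⟩) (mem_sup_right (mem_zpowers δ))
    · intro g hg l hl x hx
      have hlj : l ≠ j := fun h => hl (Finset.mem_singleton.2 h)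
      have h1 : M4 ι σ α j δ ≤ centralizer {pgl m F (gT σ l x)} := by
        rw [M4, closure_le]
        rintro _ ⟨B, t, g, hB, hg, rfl⟩
        show _ ∈ centralizer {pgl m F (gT σ l x)}
        rw [mem_centralizer_iff]
        rintro _ rfl
        have h2 : gT σ l x * gT σ j g = gT σ j g * gT σ l x := by
          apply Units.ext
          rw [Units.val_mul, Units.val_mul, gT_val, gT_val]
          exact TT_comm σ hlj _ _
        rw [← mul_assoc, ← map_mul, h2, map_mul, mul_assoc, mul_assoc, DM_gT σ 5 hm hδD hx]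
      exact ((mem_centralizer_iff.1 (h1 hg)) _ rfl).symm
    · intro l hl i hi
      rw [Finset.mem_singleton.1 hl]
      fin_cases i
      · exact hgQ 0 _ rfl
      · exact hgQ 2 _ rfl
      · exact absurd rfl hi
    · intro y hy
      have h1 : Q ≤ centralizer {g} := by
        rw [hQ, closure_le]
        rintro _ ⟨i, rfl⟩
        show _ ∈ centralizer {g}
        rw [mem_centralizer_iff]
        rintro _ rfl
        exact hgc i
      exact (mem_centralizer_iff.1 (h1 hy)) _ rfl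

end Vale.Agent.P240.R2.H399.V4
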